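import Mathlib

set_option autoImplicit false

/-!
The general linear group of a finite dimensional space is transitive on the pairs of subspaces
with prescribed dimensions and prescribed dimension of the intersection.
-/

namespace Vale.Agent.P318.R2.H704

variable {F E : Type*} [Field F] [AddCommGroup E] [Module F E] [FiniteDimensional F E]

/-- A relative complement, with its dimension. -/
theorem rel_compl (P S : Submodule F E) (h : P ≤ S) :
    ∃ A : Submodule F E, P ⊔ A = S ∧ Module.finrank F P + Module.finrank F A =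
      Module.finrank F S := by
  obtain ⟨Q, hQ⟩ := Submodule.exists_isCompl P
  have h1 : P ⊔ Q ⊓ S = S := by
    rw [← sup_inf_assoc_of_le Q h, hQ.sup_eq_top, top_inf_eq]
  have h2 : P ⊓ (Q ⊓ S) = ⊥ := by
    rw [← inf_assoc, hQ.inf_eq_bot, bot_inf_eq]
  refine ⟨Q ⊓ S, h1, ?_⟩
  have h3 := Submodule.finrank_sup_add_finrank_inf_eq P (Q ⊓ S)
  rw [h1, h2, finrank_bot, add_zero] at h3
  exact h3.symm

/-- Two subspaces split the space into four parts. -/
theorem decomp (S T : Submodule F E) :
    ∃ A B C : Submodule F E, (S ⊓ T) ⊔ A = S ∧ (S ⊓ T) ⊔ B = T ∧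
      (S ⊓ T) ⊔ (A ⊔ (B ⊔ C)) = ⊤ ∧
      Module.finrank F (S ⊓ T : Submodule F E) + Module.finrank F A = Module.finrank F S ∧
      Module.finrank F (S ⊓ T : Submodule F E) + Module.finrank F B = Module.finrank F T ∧
      Module.finrank F (S ⊓ T : Submodule F E) + (Module.finrank F A + (Module.finrank F B +
        Module.finrank F C)) = Module.finrank F E := by
  obtain ⟨A, hA, dA⟩ := rel_compl (S ⊓ T) S inf_le_left
  obtain ⟨B, hB, dB⟩ := rel_compl (S ⊓ T) T inf_le_right
  obtain ⟨C, hC, dC⟩ := rel_compl (S ⊔ T) ⊤ le_top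
  have hd := Submodule.finrank_sup_add_finrank_inf_eq S T
  rw [finrank_top] at dC
  refine ⟨A, B, C, hA, hB, ?_, dA, dB, by omega⟩
  rw [eq_top_iff, ← hC]
  refine sup_le (sup_le ?_ ?_) ?_
  · nth_rw 1 [← hA]
    exact sup_le_sup_left le_sup_left _
  · nth_rw 1 [← hB]
    exact sup_le_sup_left (le_sup_left.trans le_sup_right) _
  · exact (le_sup_right.trans le_sup_right).trans le_sup_right

/-- The sum map of four subspaces. -/
def sumMap (I A B C : Submodule F E) : (I × A × B × C) →ₗ[F] E :=
  I.subtype.coprod (A.subtype.coprod (B.subtype.coprod C.subtype))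

theorem sumMap_bij (I A B C : Submodule F E) (h : I ⊔ (A ⊔ (B ⊔ C)) = ⊤)
    (hd : Module.finrank F I + (Module.finrank F A + (Module.finrank F B +
      Module.finrank F C)) = Module.finrank F E) : Function.Bijective (sumMap I A B C) := by
  have hs : Function.Surjective (sumMap I A B C) := by
    rw [← LinearMap.range_eq_top, sumMap, LinearMap.range_coprod, LinearMap.range_coprod,
      LinearMap.range_coprod, Submodule.range_subtype, Submodule.range_subtype,
      Submodule.range_subtype, Submodule.range_subtype, h]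
  refine ⟨?_, hs⟩
  have hd' : Module.finrank F (I × A × B × C) = Module.finrank F E := by
    rw [Module.finrank_prod, Module.finrank_prod, Module.finrank_prod, hd]
  exact (LinearMap.injective_iff_surjective_of_finrank_eq_finrank hd').2 hs

theorem sub_trans {F E : Type*} [Field F] [AddCommGroup E] [Module F E] [FiniteDimensional F E]
    (S T S' T' : Submodule F E) (h1 : Module.finrank F S = Module.finrank F S')
    (h2 : Module.finrank F T = Module.finrank F T')
    (h3 : Module.finrank F (S ⊓ T : Submodule F E) =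
      Module.finrank F (S' ⊓ T' : Submodule F E)) :
    ∃ g : E ≃ₗ[F] E, S.map g.toLinearMap = S' ∧ T.map g.toLinearMap = T' := by
  obtain ⟨A, B, C, hA, hB, hC, dA, dB, dC⟩ := decomp S T
  obtain ⟨A', B', C', hA', hB', hC', dA', dB', dC'⟩ := decomp S' T'
  have eA : Module.finrank F A = Module.finrank F A' := by omega
  have eB : Module.finrank F B = Module.finrank F B' := by omega
  have eC : Module.finrank F C = Module.finrank F C' := by omega
  let uI : (S ⊓ T : Submodule F E) ≃ₗ[F] (S' ⊓ T' : Submodule F E) :=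
    LinearEquiv.ofFinrankEq _ _ h3
  let uA : A ≃ₗ[F] A' := LinearEquiv.ofFinrankEq _ _ eA
  let uB : B ≃ₗ[F] B' := LinearEquiv.ofFinrankEq _ _ eB
  let uC : C ≃ₗ[F] C' := LinearEquiv.ofFinrankEq _ _ eC
  let e := LinearEquiv.ofBijective (sumMap (S ⊓ T) A B C) (sumMap_bij _ _ _ _ hC dC)
  let e' := LinearEquiv.ofBijective (sumMap (S' ⊓ T') A' B' C') (sumMap_bij _ _ _ _ hC' dC')
  let u : ((S ⊓ T : Submodule F E) × A × B × C) ≃ₗ[F]
      ((S' ⊓ T' : Submodule F E) × A' × B' × C') :=
    LinearEquiv.prodCongr uI (LinearEquiv.prodCongr uA (LinearEquiv.prodCongr uB uC))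
  let g : E ≃ₗ[F] E := e.symm.trans (u.trans e')
  have hg : ∀ p, g (sumMap (S ⊓ T) A B C p) = sumMap (S' ⊓ T') A' B' C' (u p) := by
    intro p
    have : e.symm (sumMap (S ⊓ T) A B C p) = p := e.symm_apply_apply p
    simp only [g, LinearEquiv.trans_apply, this]
    rfl
  have gI : (S ⊓ T : Submodule F E).map g.toLinearMap ≤ S' ⊓ T' := by
    rintro _ ⟨x, hx, rfl⟩
    have := hg (⟨x, hx⟩, 0, 0, 0)
    simp only [sumMap, LinearMap.coprod_apply, Submodule.subtype_apply, map_zero, add_zero, u,
      LinearEquiv.prodCongr_apply] at this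
    change g x ∈ _
    rw [this]
    exact (uI ⟨x, hx⟩).2
  have gA : A.map g.toLinearMap ≤ A' := by
    rintro _ ⟨x, hx, rfl⟩
    have := hg (0, ⟨x, hx⟩, 0, 0)
    simp only [sumMap, LinearMap.coprod_apply, Submodule.subtype_apply, map_zero, add_zero,
      zero_add, u, LinearEquiv.prodCongr_apply] at this
    change g x ∈ _
    rw [this]
    exact (uA ⟨x, hx⟩).2
  have gB : B.map g.toLinearMap ≤ B' := by
    rintro _ ⟨x, hx, rfl⟩
    have := hg (0, 0, ⟨x, hx⟩, 0)
    simp only [sumMap, LinearMap.coprod_apply, Submodule.subtype_apply, map_zero, add_zero,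
      zero_add, u, LinearEquiv.prodCongr_apply] at this
    change g x ∈ _
    rw [this]
    exact (uB ⟨x, hx⟩).2
  refine ⟨g, ?_, ?_⟩
  · apply Submodule.eq_of_le_of_finrank_eq
    · rw [← hA, Submodule.map_sup, ← hA']
      exact sup_le_sup gI gA
    · rw [LinearEquiv.finrank_map_eq g S, h1]
  · apply Submodule.eq_of_le_of_finrank_eq
    · rw [← hB, Submodule.map_sup, ← hB']
      exact sup_le_sup gI gB
    · rw [LinearEquiv.finrank_map_eq g T, h2]

end Vale.Agent.P318.R2.H704
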